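import Crest.Agent.X262.Brg.Sym
import Crest.Agent.X262.Brg.Jac
import Crest.Agent.X277.Lef.PModel

/-!
# Row 262, bridge (helper19): generic points of hypersurfaces

`GP G y` : `y` is a generic point of the projective hypersurface `G = 0` (of `P^N` if `G = 0`).

* `GP.ne`, `GP.smooth`, `GP.ne₀`, `GP.smooth₀` : coordinates are nonzero, charts are smooth;
* `gp_chart`, `gp_free` : the generic points of a smooth hypersurface and of projective space;
* `exists_gp` : the data for a rational smooth cubic fourfold.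
-/

set_option autoImplicit false

open MvPolynomial AlgebraicGeometry
open Crest.AlgGeometry
open scoped KaehlerDifferential

noncomputable section

namespace Crest.Agent.X262.Brg.Hyp0

open Brg.Cubic Brg.Jac X277.Lef

variable {k K : Type} [Field k] [Field K] [Algebra k K] {N : ℕ}

theorem aeval_smul {σ : Type} {q : MvPolynomial σ k} {m : ℕ} (hq : q.IsHomogeneous m) (c : K)
    (y : σ → K) : aeval (c • y) q = c ^ m * aeval y q := by
  rw [aeval_def, aeval_def, eval₂_eq_eval_map, eval₂_eq_eval_map, eval_smul (hq.map _)]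

/-- `y` is a generic point of the hypersurface `G = 0` -/
def GP (G : MvPolynomial (Fin (N + 1)) k) (y : Fin (N + 1) → K) : Prop :=
  ∀ (m : ℕ) (q : MvPolynomial (Fin (N + 1)) k), q.IsHomogeneous m → (aeval y q = 0 ↔ G ∣ q)

variable {G : MvPolynomial (Fin (N + 1)) k} {y : Fin (N + 1) → K}

/-- the presentation of a chart -/
def pres (k : Type) [Field k] [Algebra k K] (y : Fin (N + 1) → K) (i : Fin (N + 1)) :
    MvPolynomial (Fin (N + 1)) k →ₐ[k] chart k y i :=
  aeval fun j => ⟨y j / y i, Algebra.subset_adjoin ⟨j, rfl⟩⟩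

theorem coe_pres (i : Fin (N + 1)) (q : MvPolynomial (Fin (N + 1)) k) :
    (pres k y i q : K) = aeval ((y i)⁻¹ • y) q := by
  have h : (chart k y i).val.comp (pres k y i) = aeval ((y i)⁻¹ • y) := by
    ext1 j
    simp [pres, div_eq_inv_mul]
  exact DFunLike.congr_fun h q

theorem pres_surj (i : Fin (N + 1)) : Function.Surjective (pres k y i) := by
  rintro ⟨x, hx⟩
  rw [chart, Algebra.adjoin_range_eq_range_aeval] at hx
  obtain ⟨q, rfl⟩ := hx
  refine ⟨q, Subtype.ext ?_⟩
  rw [coe_pres]
  congr 2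
  funext j
  simp [div_eq_inv_mul]

theorem GP.ker {d : ℕ} (h : GP G y) (hG : G.IsHomogeneous d) {i : Fin (N + 1)} (hi : y i ≠ 0) :
    RingHom.ker (pres k y i) = Ideal.span {G, X i - 1} := by
  have h0 : ∀ q, q ∈ RingHom.ker (pres k y i) ↔ aeval ((y i)⁻¹ • y) q = 0 := fun q => by
    rw [RingHom.mem_ker, ← coe_pres]
    exact Subtype.ext_iff
  have h1 : X i - 1 ∈ RingHom.ker (pres k y i) := by simp [h0, hi]
  refine le_antisymm (fun q hq => ?_) (Ideal.span_le.2 ?_)
  · let q' := ∑ j ∈ Finset.range (q.totalDegree + 1),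
      X i ^ (q.totalDegree - j) * homogeneousComponent j q
    have h2 : q'.IsHomogeneous q.totalDegree := IsHomogeneous.sum _ _ _ fun j hj => by
      have := (isHomogeneous_X_pow (R := k) i (q.totalDegree - j)).mul
        (homogeneousComponent_isHomogeneous j q)
      rwa [Nat.sub_add_cancel (Nat.lt_succ_iff.1 (Finset.mem_range.1 hj))] at this
    have h3 : X i - 1 ∣ q' - q := by
      conv_rhs => rw [← sum_homogeneousComponent q]
      rw [← Finset.sum_sub_distrib]
      refine Finset.dvd_sum fun j _ => ?_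
      rw [← sub_one_mul]
      exact (sub_one_dvd_pow_sub_one _ _).mul_right _
    have h4 : q' ∈ RingHom.ker (pres k y i) := by
      have := add_mem (Ideal.mem_of_dvd _ h3 h1) hq
      rwa [sub_add_cancel] at this
    rw [h0, aeval_smul h2, mul_eq_zero] at h4
    have h5 := (h _ _ h2).1 (h4.resolve_left (by positivity))
    have h6 := sub_mem (Ideal.mem_of_dvd (Ideal.span {G, X i - 1}) h5
      (Ideal.subset_span (by simp))) (Ideal.mem_of_dvd _ h3 (Ideal.subset_span (by simp)))
    rwa [sub_sub_cancel] at h6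
  · rintro _ (rfl | rfl)
    · rw [SetLike.mem_coe, h0, aeval_smul hG, (h _ _ hG).2 dvd_rfl, mul_zero]
    · exact h1

theorem GP.ne {d : ℕ} (h : GP G y) (hG : G.IsHomogeneous d) (hd : 2 ≤ d) (i : Fin (N + 1)) :
    y i ≠ 0 := fun h0 => by
  have h1 := (h _ _ (isHomogeneous_X k i)).1 (by simpa using h0)
  have h2 : G ≠ 0 := ne_zero_of_dvd_ne_zero (X_ne_zero i) h1
  have h3 := totalDegree_le_of_dvd_of_isDomain h1 (X_ne_zero i)
  rw [hG.totalDegree h2, totalDegree_X] at h3
  omega

theorem GP.ne₀ (h : GP (0 : MvPolynomial (Fin (N + 1)) k) y) (i : Fin (N + 1)) : y i ≠ 0 :=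
  h.ne (isHomogeneous_zero _ _ 2) le_rfl i

theorem GP.smooth [IsAlgClosed k] {d : ℕ} (h : GP G y) (hG : G.IsHomogeneous d) (hs : Sm G)
    {i : Fin (N + 1)} (hi : y i ≠ 0) : Algebra.Smooth k (chart k y i) := by
  classical
  refine smooth_of_points _ (pres_surj i) ![G, X i - 1]
    (by rw [h.ker hG hi, Matrix.range_cons_cons_empty])
    fun p hp => ?_
  have h1 : eval p G = 0 := hp 0
  have h2 : p i = 1 := by simpa [sub_eq_zero] using hp 1
  obtain ⟨j, hj⟩ := hs p (fun h0 => by simp [h0] at h2) h1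
  have e := congrArg (eval p) hG.sum_X_mul_pderiv
  simp only [map_sum, map_mul, eval_X, map_nsmul, h1, smul_zero] at e
  rw [Fintype.linearIndependent_iff]
  intro g hg
  have h3 : ∀ s, g 0 * eval p (pderiv s G) + g 1 * (if i = s then 1 else 0) = 0 := fun s => by
    simpa [Fin.sum_univ_two, pderiv_X, Pi.single_apply, apply_ite (eval p)] using congrFun hg s
  have h4 : g 1 = 0 := by
    have h5 : ∑ s, p s * (g 0 * eval p (pderiv s G) + g 1 * (if i = s then 1 else 0)) = 0 := by
      simp only [h3, mul_zero, Finset.sum_const_zero]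
    simp only [mul_add, Finset.sum_add_distrib, mul_left_comm _ (g 0), ← Finset.mul_sum, e] at h5
    simpa [h2] using h5
  have h5 : g 0 = 0 := by simpa [h4, hj] using h3 j
  exact Fin.forall_fin_two.2 ⟨h5, h4⟩

theorem GP.smooth₀ [IsAlgClosed k] (h : GP (0 : MvPolynomial (Fin (N + 1)) k) y)
    (i : Fin (N + 1)) : Algebra.Smooth k (chart k y i) := by
  classical
  refine smooth_of_points _ (pres_surj i) (fun _ : Unit => X i - 1)
    (by rw [h.ker (isHomogeneous_zero _ _ 0) (h.ne₀ i)]; simp) fun p _ => ?_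
  rw [linearIndependent_unique_iff]
  intro h0
  simpa using congrFun h0 i

theorem frac_of_adjoin {K : Type} [Field K] [Algebra ℂ K] {x : Fin N → K}
    (h : IntermediateField.adjoin ℂ (Set.range x) = ⊤) (f : K) :
    ∃ a ∈ chart ℂ (Fin.cons 1 x : Fin (N + 1) → K) 0,
      ∃ c ∈ chart ℂ (Fin.cons 1 x : Fin (N + 1) → K) 0, c ≠ 0 ∧ f = a / c := by
  obtain ⟨d, h1, h2, h3⟩ := Sym.fr_of_adjoin (S := chart ℂ (Fin.cons 1 x : Fin (N + 1) → K) 0)
    (top_unique (h ▸ IntermediateField.adjoin.mono _ _ _ (by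
      rintro _ ⟨j, rfl⟩
      exact Algebra.subset_adjoin ⟨j.succ, by simp⟩))) f
  exact ⟨_, h3, d, h1, h2, (mul_div_cancel_right₀ f h2).symm⟩

theorem aeval_cons (x : Fin N → K) (q : MvPolynomial (Fin (N + 1)) k) :
    aeval (Fin.cons 1 x : Fin (N + 1) → K) q = aeval x (deh q) := by
  have h : (aeval x).comp (deh (k := k) (n := N)) = aeval (Fin.cons 1 x : Fin (N + 1) → K) := by
    ext1 i
    refine Fin.cases ?_ (fun i => ?_) i <;> simp [deh]
  exact (DFunLike.congr_fun h q).symm

theorem gp_free [Infinite k] {x : Fin N → K} (hx : AlgebraicIndependent k x) :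
    GP (0 : MvPolynomial (Fin (N + 1)) k) (Fin.cons 1 x : Fin (N + 1) → K) := fun m q hq => by
  rw [aeval_cons, zero_dvd_iff, map_eq_zero_iff _ hx]
  exact ⟨fun h => eq_of_deh hq (isHomogeneous_zero _ _ m) (by rw [h, map_zero]),
    fun h => by rw [h, map_zero]⟩

theorem totalDegree_deh_eq [IsAlgClosed k] (hN : 2 ≤ N) {d : ℕ} (hd : 2 ≤ d)
    (hG : G.IsHomogeneous d) (hs : Sm G) : (deh G).totalDegree = d := by
  refine le_antisymm ((totalDegree_deh G).trans hG.totalDegree_le) (not_lt.1 fun hlt => ?_)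
  have h0 := isHomogeneous_X k (0 : Fin (N + 1))
  have h1 := hom_isHomogeneous (d - 1) (deh G)
  have h2 : G = X 0 * hom (d - 1) (deh G) := eq_of_deh hG
    (by simpa [show 1 + (d - 1) = d by omega] using h0.mul h1)
    (by rw [map_mul, deh_X0, one_mul, deh_hom (by omega)])
  exact Sm.not_mul (by omega) h0 h1 one_ne_zero (by omega) (h2 ▸ hs)

theorem gp_of_ker [IsAlgClosed k] (hN : 2 ≤ N) {d : ℕ} (hd : 2 ≤ d) (hG : G.IsHomogeneous d)
    (hs : Sm G) {x : Fin N → K} (hx : ∀ q : MvPolynomial (Fin N) k, aeval x q = 0 ↔ deh G ∣ q) :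
    GP G (Fin.cons 1 x : Fin (N + 1) → K) := fun m q hq => by
  rw [aeval_cons, hx]
  refine ⟨fun ⟨r, hr⟩ => ?_, map_dvd deh⟩
  by_cases h0 : r = 0
  · rw [eq_of_deh hq (isHomogeneous_zero _ _ m) (by rw [hr, h0, mul_zero, map_zero])]
    exact dvd_zero _
  have h1 := totalDegree_mul_of_isDomain (prime_deh hN hd hG hs).ne_zero h0
  have h2 := (totalDegree_deh q).trans hq.totalDegree_le
  rw [← hr, totalDegree_deh_eq hN hd hG hs] at h1
  refine ⟨hom (m - d) r, eq_of_deh hq ?_ (by rw [map_mul, deh_hom (by omega), hr])⟩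
  simpa [show d + (m - d) = m by omega] using hG.mul (hom_isHomogeneous (m - d) r)

theorem adjoin_top_of_frac {A : Type} [CommRing A] [Algebra k A] [Algebra A K] [IsScalarTower k A K]
    [IsFractionRing A K] {σ : Type} (x : σ → A) (hx : Function.Surjective (aeval (R := k) x)) :
    IntermediateField.adjoin k (Set.range fun i => algebraMap A K (x i)) = ⊤ := by
  have key : ∀ a, algebraMap A K a ∈
      IntermediateField.adjoin k (Set.range fun i => algebraMap A K (x i)) := fun a => by
    obtain ⟨q, rfl⟩ := hx a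
    rw [← aeval_algebraMap_apply]
    exact IntermediateField.algebra_adjoin_le_adjoin _ _
      (by rw [Algebra.adjoin_range_eq_range_aeval]; exact ⟨q, rfl⟩)
  refine top_unique fun z _ => ?_
  obtain ⟨a, b, -, rfl⟩ := IsFractionRing.div_surjective (A := A) z
  exact div_mem (key a) (key b)

theorem basis_of_free {x : Fin N → K} (hx : AlgebraicIndependent k x)
    (h : IntermediateField.adjoin k (Set.range x) = ⊤) :
    Nonempty (Module.Basis (Fin N) K Ω[K⁄k]) := by
  let _ : Algebra (MvPolynomial (Fin N) k) K := (aeval x).toRingHom.toAlgebra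
  have : IsScalarTower k (MvPolynomial (Fin N) k) K :=
    IsScalarTower.of_algebraMap_eq fun c => ((aeval x).commutes c).symm
  have : FaithfulSMul (MvPolynomial (Fin N) k) K :=
    (faithfulSMul_iff_algebraMap_injective _ _).2 hx
  have : IsFractionRing (MvPolynomial (Fin N) k) K := .of_field _ _ fun z =>
    (IntermediateField.mem_adjoin_range_iff k x z).1 (h ▸ IntermediateField.mem_top)
  exact ⟨(KaehlerDifferential.mvPolynomialBasis k (Fin N)).ofIsLocalizedModule K
    (nonZeroDivisors (MvPolynomial (Fin N) k)) (KaehlerDifferential.map k k _ K)⟩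

/-- generic point of a smooth cubic fourfold -/
theorem exists_gp_cubic {F : MvPolynomial (Fin 6) ℂ} (hF : F.IsHomogeneous 3) (hs : Sm F)
    (K : Type) [Field K] [Algebra (cubicAffineChart F) K] [IsFractionRing (cubicAffineChart F) K]
    [Algebra ℂ K] [IsScalarTower ℂ (cubicAffineChart F) K] :
    ∃ x : Fin 5 → K, IntermediateField.adjoin ℂ (Set.range x) = ⊤ ∧
      GP F (Fin.cons 1 x : Fin 6 → K) := by
  have e : aeval (R := ℂ) (fun i : Fin 5 => (Ideal.Quotient.mk _ (X i) : cubicAffineChart F)) =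
      Ideal.Quotient.mkₐ ℂ _ := by
    ext1 i
    exact aeval_X _ _
  refine ⟨_, adjoin_top_of_frac (fun i : Fin 5 => (Ideal.Quotient.mk _ (X i) : cubicAffineChart F))
    (e ▸ Ideal.Quotient.mkₐ_surjective ℂ _),
    gp_of_ker (N := 5) (by norm_num) (by norm_num) hF hs fun q => ?_⟩
  refine (Eq.congr_left (aeval_algebraMap_apply K _ q)).trans ?_
  rw [map_eq_zero_iff _ (IsFractionRing.injective _ K), e,
    Ideal.Quotient.mkₐ_eq_mk, Ideal.Quotient.eq_zero_iff_mem, Ideal.mem_span_singleton, chart_eq]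

theorem exists_free {K : Type} [Field K] [Algebra k K]
    (e : K ≃ₐ[k] FractionRing (MvPolynomial (Fin N) k)) :
    ∃ x : Fin N → K, AlgebraicIndependent k x ∧ IntermediateField.adjoin k (Set.range x) = ⊤ := by
  let _ : Algebra (MvPolynomial (Fin N) k) K :=
    (e.symm.toAlgHom.comp (IsScalarTower.toAlgHom k _ _)).toRingHom.toAlgebra
  have : IsScalarTower k (MvPolynomial (Fin N) k) K := IsScalarTower.of_algebraMap_eq fun c =>
    ((e.symm.toAlgHom.comp (IsScalarTower.toAlgHom k (MvPolynomial (Fin N) k) _)).commutes c).symm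
  let e' : FractionRing (MvPolynomial (Fin N) k) ≃ₐ[MvPolynomial (Fin N) k] K :=
    AlgEquiv.ofRingEquiv (f := e.symm.toRingEquiv) fun _ => rfl
  have : IsFractionRing (MvPolynomial (Fin N) k) K := IsFractionRing.of_algEquiv e'
  refine ⟨_, ?_, adjoin_top_of_frac X fun q => ⟨q, aeval_X_left_apply q⟩⟩
  exact (MvPolynomial.algebraicIndependent_X (Fin N) k).map' (f := IsScalarTower.toAlgHom k _ K)
    (IsFractionRing.injective _ K)

/-- **the data attached to a rational smooth cubic fourfold** -/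
theorem exists_gp {F : MvPolynomial (Fin 6) ℂ} (hF : F.IsHomogeneous 3) (hs : Sm F)
    (h : Scheme.IsRationalOver (toSpecComplex (cubicAffineChart F))) :
    ∃ (K : Type) (_ : Field K) (_ : Algebra ℂ K) (x : Fin 4 → K) (z : Fin 5 → K),
      AlgebraicIndependent ℂ x ∧ IntermediateField.adjoin ℂ (Set.range x) = ⊤ ∧
      IntermediateField.adjoin ℂ (Set.range z) = ⊤ ∧ GP F (Fin.cons 1 z : Fin 6 → K) := by
  have := chart_isDomain hF hs
  obtain ⟨e⟩ := equiv_of_rational hF hs (FractionRing (cubicAffineChart F)) h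
  obtain ⟨x, h1, h2⟩ := exists_free e
  obtain ⟨z, h3, h4⟩ := exists_gp_cubic hF hs (FractionRing (cubicAffineChart F))
  exact ⟨_, inferInstance, inferInstance, x, z, h1, h2, h3, h4⟩

end Crest.Agent.X262.Brg.Hyp0
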