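import Crest.Prelude.Def_CubicLines

/-!
# Row 262, bridge (helper19): birational affine varieties and their fraction fields

* `fracEquiv_of_birationalOver` : birational domains have isomorphic fraction fields;
* `birationalOver_of_frac`      : finitely generated domains with a common fraction field are
                                  birational;
* `birationalOver_quot`         : an irreducible, generically reduced `Spec A` is birational to its
                                  reduction;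
* `exists_equiv_of_isRationalOver` : the fraction field of a rational domain.
-/

set_option autoImplicit false

open CategoryTheory AlgebraicGeometry
open Crest.AlgGeometry

noncomputable section

namespace Crest.Agent.X262.Brg.Bir

/-- the constants in the function field -/
def cst {X : Scheme.{0}} [IrreducibleSpace X] (s : X ⟶ Spec (CommRingCat.of ℂ)) :
    CommRingCat.of ℂ ⟶ X.functionField :=
  (Scheme.ΓSpecIso (CommRingCat.of ℂ)).inv ≫ s.appTop ≫ X.presheaf.germ ⊤ (genericPoint X) trivial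

/-- isomorphic function fields -/
def FE {X Y : Scheme.{0}} [IrreducibleSpace X] [IrreducibleSpace Y]
    (s : X ⟶ Spec (CommRingCat.of ℂ)) (t : Y ⟶ Spec (CommRingCat.of ℂ)) : Prop :=
  ∃ e : X.functionField ≅ Y.functionField, cst s ≫ e.hom = cst t

theorem FE.symm {X Y : Scheme.{0}} [IrreducibleSpace X] [IrreducibleSpace Y]
    {s : X ⟶ Spec (CommRingCat.of ℂ)} {t : Y ⟶ Spec (CommRingCat.of ℂ)} (h : FE s t) : FE t s := by
  obtain ⟨e, he⟩ := h
  exact ⟨e.symm, by rw [← he]; simp⟩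

theorem FE.trans {X Y Z : Scheme.{0}} [IrreducibleSpace X] [IrreducibleSpace Y]
    [IrreducibleSpace Z] {s : X ⟶ Spec (CommRingCat.of ℂ)} {t : Y ⟶ Spec (CommRingCat.of ℂ)}
    {u : Z ⟶ Spec (CommRingCat.of ℂ)} (h : FE s t) (h' : FE t u) : FE s u := by
  obtain ⟨e, he⟩ := h
  obtain ⟨e', he'⟩ := h'
  exact ⟨e ≪≫ e', by rw [Iso.trans_hom, ← Category.assoc, he, he']⟩

theorem fe_open {X Y : Scheme.{0}} [IrreducibleSpace X] [IrreducibleSpace Y] (f : X ⟶ Y)
    [IsOpenImmersion f] (t : Y ⟶ Spec (CommRingCat.of ℂ)) : FE t (f ≫ t) := by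
  have h := genericPoint_eq_of_isOpenImmersion f
  refine ⟨Y.presheaf.stalkCongr (.of_eq h.symm) ≪≫ asIso (f.stalkMap (genericPoint X)), ?_⟩
  simp only [cst, Iso.trans_hom, asIso_hom, Category.assoc, Scheme.Hom.comp_appTop,
    TopCat.Presheaf.stalkCongr_hom]
  rw [TopCat.Presheaf.germ_stalkSpecializes_assoc, Scheme.Hom.germ_stalkMap]
  rfl

theorem fe_of_bir {X Y : Scheme.{0}} [IsIntegral X] [IsIntegral Y]
    {s : X ⟶ Spec (CommRingCat.of ℂ)} {t : Y ⟶ Spec (CommRingCat.of ℂ)}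
    (h : Scheme.BirationalOver s t) : FE s t := by
  obtain ⟨f, hf⟩ := h
  have : Nonempty f.source := f.dense_source.nonempty.to_subtype
  have : Nonempty f.target := f.dense_target.nonempty.to_subtype
  have h1 := fe_open f.source.ι s
  have h2 := (fe_open f.target.ι t).trans (fe_open f.iso.hom (f.target.ι ≫ t))
  have h3 : f.iso.hom ≫ f.target.ι ≫ t = f.source.ι ≫ s := hf
  rw [h3] at h2
  exact h1.trans h2.symm

instance algFF (A : Type) [CommRing A] [IsDomain A] :
    Algebra A (Spec (CommRingCat.of A)).functionField :=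
  instAlgebraCarrierFunctionFieldSpec (CommRingCat.of A)

instance fracFF (A : Type) [CommRing A] [IsDomain A] :
    IsFractionRing A (Spec (CommRingCat.of A)).functionField :=
  functionField_isFractionRing_of_affine (CommRingCat.of A)

theorem cst_spec (A : Type) [CommRing A] [Algebra ℂ A] [IsDomain A] (c : ℂ) :
    cst (toSpecComplex A) c =
      algebraMap A (Spec (CommRingCat.of A)).functionField (algebraMap ℂ A c) := by
  have h : cst (toSpecComplex A) = CommRingCat.ofHom (algebraMap ℂ A) ≫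
      (Scheme.ΓSpecIso (CommRingCat.of A)).inv ≫
        (Spec (CommRingCat.of A)).presheaf.germ ⊤ (genericPoint _) trivial := by
    rw [cst, toSpecComplex, ← Scheme.ΓSpecIso_inv_naturality_assoc]
  rw [h]
  rfl

theorem fracEquiv_of_birationalOver {A B : Type} [CommRing A] [Algebra ℂ A] [IsDomain A]
    [CommRing B] [Algebra ℂ B] [IsDomain B] (K L : Type) [Field K] [Field L] [Algebra A K]
    [IsFractionRing A K] [Algebra ℂ K] [IsScalarTower ℂ A K] [Algebra B L] [IsFractionRing B L]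
    [Algebra ℂ L] [IsScalarTower ℂ B L]
    (h : Scheme.BirationalOver (toSpecComplex A) (toSpecComplex B)) : Nonempty (K ≃ₐ[ℂ] L) := by
  obtain ⟨e, he⟩ := fe_of_bir h
  let e1 : K ≃ₐ[A] (Spec (CommRingCat.of A)).functionField :=
    IsLocalization.algEquiv (nonZeroDivisors A) _ _
  let e2 : L ≃ₐ[B] (Spec (CommRingCat.of B)).functionField :=
    IsLocalization.algEquiv (nonZeroDivisors B) _ _
  refine ⟨AlgEquiv.ofRingEquiv (f := e1.toRingEquiv.trans
    (e.commRingCatIsoToRingEquiv.trans e2.symm.toRingEquiv)) fun c => ?_⟩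
  have h1 : e1 (algebraMap ℂ K c) = cst (toSpecComplex A) c := by
    rw [cst_spec, IsScalarTower.algebraMap_apply ℂ A K, e1.commutes]
  have h2 : e2 (algebraMap ℂ L c) = cst (toSpecComplex B) c := by
    rw [cst_spec, IsScalarTower.algebraMap_apply ℂ B L, e2.commutes]
  change e2.symm (e.hom (e1 (algebraMap ℂ K c))) = _
  rw [h1, AlgEquiv.symm_apply_eq, h2, ← he]
  rfl

/-- an algebra map which is a localisation away from a nonzero element -/
theorem bir_away {A C : Type} [CommRing A] [Algebra ℂ A] [CommRing C] [Algebra ℂ C] [Algebra A C]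
    [IsScalarTower ℂ A C] (a : A) [IsLocalization.Away a C]
    (hd : Dense (PrimeSpectrum.basicOpen a : Set (PrimeSpectrum A))) :
    Scheme.BirationalOver (toSpecComplex C) (toSpecComplex A) := by
  let f : Spec (CommRingCat.of C) ⟶ Spec (CommRingCat.of A) :=
    Spec.map (CommRingCat.ofHom (algebraMap A C))
  have : IsOpenImmersion f := IsOpenImmersion.of_isLocalization a
  have : IsDominant f := ⟨by
    have h : Set.range f = (PrimeSpectrum.basicOpen a : Set (PrimeSpectrum A)) :=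
      PrimeSpectrum.localization_away_comap_range C a
    rw [DenseRange, h]
    exact hd⟩
  refine f.birationalOver _ _ ?_
  rw [toSpecComplex, toSpecComplex, ← Spec.map_comp, ← CommRingCat.ofHom_comp,
    ← IsScalarTower.algebraMap_eq]

theorem dense_basicOpen {A : Type} [CommRing A] (h : (nilradical A).IsPrime) {a : A}
    (ha : a ∉ nilradical A) : Dense (PrimeSpectrum.basicOpen a : Set (PrimeSpectrum A)) := by
  have : IrreducibleSpace (PrimeSpectrum A) := PrimeSpectrum.irreducibleSpace_iff_isPrime_nilradical.2 h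
  exact (PrimeSpectrum.basicOpen a).isOpen.dense ⟨⟨_, h⟩, ha⟩

theorem dense_basicOpen' {A : Type} [CommRing A] [IsDomain A] {a : A} (ha : a ≠ 0) :
    Dense (PrimeSpectrum.basicOpen a : Set (PrimeSpectrum A)) := by
  refine dense_basicOpen ?_ ?_ <;> rw [nilradical_eq_zero]
  · exact Ideal.isPrime_bot
  · exact ha

section frac

variable {K : Type} [Field K] [Algebra ℂ K]

/-- the subalgebra `A[1/a]` -/
def away (A : Subalgebra ℂ K) (a : K) : Subalgebra ℂ K := A ⊔ Algebra.adjoin ℂ {a⁻¹}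

theorem mem_away {A : Subalgebra ℂ K} {a : K} (ha : a ∈ A) (h0 : a ≠ 0) {x : K} :
    x ∈ away A a ↔ ∃ n : ℕ, x * a ^ n ∈ A := by
  constructor
  · intro hx
    let S : Subalgebra ℂ K :=
      { carrier := {x | ∃ n : ℕ, x * a ^ n ∈ A}
        mul_mem' := by
          rintro x y ⟨n, hn⟩ ⟨m, hm⟩
          exact ⟨n + m, by rw [pow_add, mul_mul_mul_comm]; exact A.mul_mem hn hm⟩
        add_mem' := by
          rintro x y ⟨n, hn⟩ ⟨m, hm⟩
          refine ⟨n + m, ?_⟩
          have : (x + y) * a ^ (n + m) = x * a ^ n * a ^ m + y * a ^ m * a ^ n := by ring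
          rw [this]
          exact A.add_mem (A.mul_mem hn (A.pow_mem ha m)) (A.mul_mem hm (A.pow_mem ha n))
        algebraMap_mem' := fun c => ⟨0, by simp⟩ }
    have : away A a ≤ S := sup_le (fun y hy => ⟨0, by simpa using hy⟩)
      (Algebra.adjoin_le (by
        rintro _ rfl
        exact ⟨1, by rw [pow_one, inv_mul_cancel₀ h0]; exact A.one_mem⟩))
    exact this hx
  · rintro ⟨n, hn⟩
    have : x = x * a ^ n * a⁻¹ ^ n := by
      rw [mul_assoc, ← mul_pow, mul_inv_cancel₀ h0, one_pow, mul_one]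
    rw [this]
    exact mul_mem ((le_sup_left : A ≤ away A a) hn) (pow_mem
      ((le_sup_right : _ ≤ away A a) (Algebra.subset_adjoin rfl)) n)

/-- every element of `K` is a fraction of elements of `A` -/
def Fr (A : Subalgebra ℂ K) : Prop := ∀ x : K, ∃ d ∈ A, d ≠ 0 ∧ x * d ∈ A

theorem exists_le_away {A B : Subalgebra ℂ K} (hA : Fr A) (hB : B.FG) :
    ∃ a ∈ A, a ≠ 0 ∧ B ≤ away A a := by
  classical
  obtain ⟨S, rfl⟩ := hB
  choose d hd h0 h1 using hA
  have hm : ∏ x ∈ S, d x ∈ A := A.prod_mem fun x _ => hd x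
  have hn : ∏ x ∈ S, d x ≠ 0 := Finset.prod_ne_zero_iff.2 fun x _ => h0 x
  refine ⟨_, hm, hn, Algebra.adjoin_le fun x hx => (mem_away hm hn).2 ⟨1, ?_⟩⟩
  rw [pow_one, ← Finset.mul_prod_erase S d hx, ← mul_assoc]
  exact A.mul_mem (h1 x) (A.prod_mem fun y _ => hd y)

theorem inv_mem_away {A : Subalgebra ℂ K} {a b c : K} (hc : c ∈ A) (h : a = b * c) (h0 : a ≠ 0) :
    b⁻¹ ∈ away A a := by
  have hc0 : c ≠ 0 := by rintro rfl; simp [h] at h0
  have hb0 : b ≠ 0 := by rintro rfl; simp [h] at h0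
  have : b⁻¹ = c * a⁻¹ := by rw [h]; field_simp
  rw [this]
  exact mul_mem ((le_sup_left : A ≤ away A a) hc)
    ((le_sup_right : _ ≤ away A a) (Algebra.subset_adjoin rfl))

theorem away_le {A C : Subalgebra ℂ K} {a : K} (h : A ≤ C) (ha : a⁻¹ ∈ C) : away A a ≤ C :=
  sup_le h (Algebra.adjoin_le (by rintro _ rfl; exact ha))

theorem exists_away_eq {A B : Subalgebra ℂ K} (hA : Fr A) (hB : Fr B) (fA : A.FG) (fB : B.FG) :
    ∃ a ∈ A, ∃ b ∈ B, a ≠ 0 ∧ b ≠ 0 ∧ away A a = away B b := by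
  obtain ⟨a, ha, ha0, h1⟩ := exists_le_away hA fB
  obtain ⟨b, hb, hb0, h2⟩ := exists_le_away hB fA
  obtain ⟨n, hn⟩ := (mem_away ha ha0).1 (h1 hb)
  obtain ⟨m, hm⟩ := (mem_away hb hb0).1 (h2 ha)
  have key : ∀ {A B : Subalgebra ℂ K} {a b : K} {n m : ℕ}, a ∈ A → b ∈ B → a ≠ 0 → b ≠ 0 →
      B ≤ away A a → b * a ^ n ∈ A → away B (a * b ^ m * b) ≤ away A (b * a ^ n * a) := by
    intro A B a b n m ha hb ha0 hb0 h1 hn
    have h0 : b * a ^ n * a ≠ 0 := by positivity
    have i1 : a⁻¹ ∈ away A (b * a ^ n * a) := inv_mem_away hn (mul_comm _ _) h0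
    have i2 : b⁻¹ ∈ away A (b * a ^ n * a) :=
      inv_mem_away (A.mul_mem (A.pow_mem ha n) ha) (mul_assoc _ _ _) h0
    refine away_le (h1.trans (away_le le_sup_left i1)) ?_
    rw [mul_inv, mul_inv, ← inv_pow]
    exact mul_mem (mul_mem i1 (pow_mem i2 m)) i2
  exact ⟨_, A.mul_mem hn ha, _, B.mul_mem hm hb, by positivity, by positivity,
    le_antisymm (key hb ha hb0 ha0 h2 hm) (key ha hb ha0 hb0 h1 hn)⟩

/-- a map onto a subalgebra whose kernel is killed by `s` and nil -/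
theorem bir_sub {A : Type} [CommRing A] [Algebra ℂ A] (φ : A →ₐ[ℂ] K)
    (hn : ∀ x, φ x = 0 → IsNilpotent x) {s : A} (hs : φ s ≠ 0) (hk : ∀ x, φ x = 0 → s * x = 0)
    {a : K} (ha : a ∈ φ.range) (h0 : a ≠ 0) (hsa : (φ s)⁻¹ ∈ away φ.range a) :
    Scheme.BirationalOver (toSpecComplex (away φ.range a)) (toSpecComplex A) := by
  obtain ⟨a', rfl⟩ := ha
  have ha : φ a' ∈ φ.range := ⟨a', rfl⟩
  change φ a' ≠ 0 at h0
  change (φ s)⁻¹ ∈ away φ.range (φ a') at hsa
  change Scheme.BirationalOver (toSpecComplex (away φ.range (φ a'))) _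
  let ψ : A →ₐ[ℂ] away φ.range (φ a') :=
    φ.codRestrict _ fun x => (le_sup_left : φ.range ≤ away φ.range (φ a')) ⟨x, rfl⟩
  let _ : Algebra A (away φ.range (φ a')) := ψ.toRingHom.toAlgebra
  have : IsScalarTower ℂ A (away φ.range (φ a')) :=
    IsScalarTower.of_algebraMap_eq fun c => (ψ.commutes c).symm
  have hψ : ∀ x, ((algebraMap A (away φ.range (φ a')) x : away φ.range (φ a')) : K) = φ x :=
    fun _ => rfl
  have : IsLocalization.Away (a' * s) (away φ.range (φ a')) := by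
    refine IsLocalization.Away.mk _ ?_ ?_ ?_
    · refine isUnit_iff_exists_inv.2 ⟨⟨(φ a')⁻¹ * (φ s)⁻¹, mul_mem
        ((le_sup_right : _ ≤ away φ.range (φ a')) (Algebra.subset_adjoin rfl)) hsa⟩, ?_⟩
      apply Subtype.ext
      rw [Subalgebra.coe_mul, hψ, map_mul]
      change _ = (1 : K)
      field_simp
    · intro z
      obtain ⟨n, y, hy⟩ := (mem_away ha h0).1 z.2
      refine ⟨n, y * s ^ n, Subtype.ext ?_⟩
      change φ y = _ at hy
      rw [Subalgebra.coe_mul, Subalgebra.coe_pow, hψ, hψ, map_mul, map_mul, map_pow, hy]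
      ring
    · intro x y hxy
      have h1 : φ (x - y) = 0 := by
        rw [map_sub, sub_eq_zero]
        exact congrArg Subtype.val hxy
      refine ⟨1, ?_⟩
      rw [← sub_eq_zero, pow_one, ← mul_sub, mul_assoc, hk _ h1, mul_zero]
  have hker : nilradical A = RingHom.ker φ := by
    ext x
    rw [mem_nilradical, RingHom.mem_ker]
    exact ⟨fun h => (h.map φ).eq_zero, hn x⟩
  refine bir_away (a' * s) (dense_basicOpen ?_ ?_)
  · rw [hker]
    exact RingHom.ker_isPrime φ
  · rw [hker, RingHom.mem_ker, map_mul]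
    exact mul_ne_zero h0 hs

/-- `A` is irreducible and generically reduced with function field `K` -/
structure Gen {A : Type} [CommRing A] [Algebra ℂ A] (φ : A →ₐ[ℂ] K) : Prop where
  nil : ∀ x, φ x = 0 → IsNilpotent x
  red : ∃ s, φ s ≠ 0 ∧ ∀ x, φ x = 0 → s * x = 0
  fr : ∀ x : K, ∃ d y, φ d ≠ 0 ∧ x * φ d = φ y

theorem Gen.of_inj {A : Type} [CommRing A] [Algebra ℂ A] {φ : A →ₐ[ℂ] K}
    (h : Function.Injective φ) (fr : ∀ x : K, ∃ d y, φ d ≠ 0 ∧ x * φ d = φ y) : Gen φ :=
  ⟨fun x hx => by rw [(map_eq_zero_iff φ h).1 hx]; exact IsNilpotent.zero,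
    ⟨1, by simp, fun x hx => by rw [(map_eq_zero_iff φ h).1 hx, mul_zero]⟩, fr⟩

theorem Gen.of_frac (A : Type) [CommRing A] [Algebra ℂ A] [Algebra A K] [IsScalarTower ℂ A K]
    [IsFractionRing A K] : Gen (IsScalarTower.toAlgHom ℂ A K) := by
  have : Nontrivial A := (algebraMap A K).domain_nontrivial
  refine Gen.of_inj (IsFractionRing.injective A K) fun x => ?_
  obtain ⟨y, d, hd, rfl⟩ := IsFractionRing.div_surjective (A := A) x
  have h0 : algebraMap A K d ≠ 0 := IsFractionRing.to_map_ne_zero_of_mem_nonZeroDivisors hd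
  exact ⟨d, y, h0, div_mul_cancel₀ _ h0⟩

theorem Gen.equiv {A : Type} [CommRing A] [Algebra ℂ A] {φ : A →ₐ[ℂ] K} (h : Gen φ) {L : Type}
    [Field L] [Algebra ℂ L] (e : K ≃ₐ[ℂ] L) : Gen (e.toAlgHom.comp φ) := by
  have h0 : ∀ x, (e.toAlgHom.comp φ) x = 0 ↔ φ x = 0 := fun x => e.map_eq_zero_iff
  obtain ⟨s, h1, h2⟩ := h.red
  refine ⟨fun x hx => h.nil x ((h0 x).1 hx), ⟨s, fun hs => h1 ((h0 s).1 hs),
    fun x hx => h2 x ((h0 x).1 hx)⟩, fun x => ?_⟩
  obtain ⟨d, y, h3, h4⟩ := h.fr (e.symm x)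
  refine ⟨d, y, fun hd => h3 ((h0 d).1 hd), ?_⟩
  change x * e (φ d) = e (φ y)
  rw [← h4, map_mul, e.apply_symm_apply]

theorem Gen.fr_range {A : Type} [CommRing A] [Algebra ℂ A] {φ : A →ₐ[ℂ] K} (h : Gen φ) :
    Fr φ.range := fun x =>
  let ⟨d, y, h1, h2⟩ := h.fr x
  ⟨φ d, ⟨d, rfl⟩, h1, ⟨y, h2.symm⟩⟩

theorem fg_range {A : Type} [CommRing A] [Algebra ℂ A] [Algebra.FiniteType ℂ A] (φ : A →ₐ[ℂ] K) :
    φ.range.FG := by
  rw [← Algebra.map_top]
  exact Algebra.FiniteType.out.map φ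

theorem fg_away {A : Subalgebra ℂ K} (h : A.FG) (a : K) : (away A a).FG := by
  classical
  obtain ⟨S, rfl⟩ := h
  exact ⟨insert a⁻¹ S, by
    rw [away, Finset.coe_insert, Set.insert_eq, Algebra.adjoin_union, sup_comm]⟩

theorem away_away {A : Subalgebra ℂ K} {a b : K} (ha : a ∈ A) (h0 : a ≠ 0) (hb : b ∈ away A a)
    (hb0 : b ≠ 0) : ∃ c ∈ A, c ≠ 0 ∧ away (away A a) b = away A c := by
  obtain ⟨n, hn⟩ := (mem_away ha h0).1 hb
  have hc : b * a ^ n * a ≠ 0 := by positivity
  have i1 : a⁻¹ ∈ away A (b * a ^ n * a) := inv_mem_away hn (mul_comm _ _) hc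
  have i2 : b⁻¹ ∈ away A (b * a ^ n * a) :=
    inv_mem_away (A.mul_mem (A.pow_mem ha n) ha) (mul_assoc _ _ _) hc
  refine ⟨_, A.mul_mem hn ha, hc, le_antisymm (away_le (away_le le_sup_left i1) i2) ?_⟩
  have j1 : a⁻¹ ∈ away (away A a) b := (le_sup_left : _ ≤ away (away A a) b)
    ((le_sup_right : _ ≤ away A a) (Algebra.subset_adjoin rfl))
  have j2 : b⁻¹ ∈ away (away A a) b :=
    (le_sup_right : _ ≤ away (away A a) b) (Algebra.subset_adjoin rfl)
  refine away_le (le_sup_left.trans le_sup_left) ?_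
  rw [mul_inv, mul_inv, ← inv_pow]
  exact mul_mem (mul_mem j2 (pow_mem j1 n)) j1

/-- **birational from a common function field** -/
theorem birationalOver_of_gen {A B : Type} [CommRing A] [Algebra ℂ A] [Algebra.FiniteType ℂ A]
    [CommRing B] [Algebra ℂ B] [Algebra.FiniteType ℂ B] {φ : A →ₐ[ℂ] K} {ψ : B →ₐ[ℂ] K}
    (hφ : Gen φ) (hψ : Gen ψ) : Scheme.BirationalOver (toSpecComplex A) (toSpecComplex B) := by
  obtain ⟨s, hs, hs'⟩ := hφ.red
  obtain ⟨t, ht, ht'⟩ := hψ.red
  have fr : ∀ {C : Subalgebra ℂ K} (a : K), Fr C → Fr (away C a) := fun {C} a h x =>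
    let ⟨d, h1, h2, h3⟩ := h x
    ⟨d, (le_sup_left : C ≤ away C a) h1, h2, (le_sup_left : C ≤ away C a) h3⟩
  obtain ⟨a, ha, b, hb, ha0, hb0, h⟩ := exists_away_eq (fr (φ s) hφ.fr_range)
    (fr (ψ t) hψ.fr_range) (fg_away (fg_range φ) _) (fg_away (fg_range ψ) _)
  obtain ⟨c, hc, hc0, h1⟩ := away_away (A := φ.range) ⟨s, rfl⟩ hs ha ha0
  obtain ⟨d, hd, hd0, h2⟩ := away_away (A := ψ.range) ⟨t, rfl⟩ ht hb hb0
  have b1 := bir_sub φ hφ.nil hs hs' hc hc0 (h1 ▸ (le_sup_left : _ ≤ away _ a)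
    ((le_sup_right : _ ≤ away φ.range (φ s)) (Algebra.subset_adjoin rfl)))
  have b2 := bir_sub ψ hψ.nil ht ht' hd hd0 (h2 ▸ (le_sup_left : _ ≤ away _ b)
    ((le_sup_right : _ ≤ away ψ.range (ψ t)) (Algebra.subset_adjoin rfl)))
  have h3 : away φ.range c = away ψ.range d := by rw [← h1, ← h2]; exact h
  rw [h3] at b1
  exact b1.symm.trans b2

end frac

/-- the fraction field of a rational domain is purely transcendental -/
theorem exists_equiv_of_isRationalOver {A : Type} [CommRing A] [Algebra ℂ A] [IsDomain A]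
    (K : Type) [Field K] [Algebra A K] [IsFractionRing A K] [Algebra ℂ K] [IsScalarTower ℂ A K]
    (h : Scheme.IsRationalOver (toSpecComplex A)) :
    ∃ n : Type, Nonempty (K ≃ₐ[ℂ] FractionRing (MvPolynomial n ℂ)) := by
  obtain ⟨n, hn⟩ := h.exists_birationalOver_affineSpace
  refine ⟨n, fracEquiv_of_birationalOver (A := A) (B := MvPolynomial n ℂ) K _ (hn.trans ?_)⟩
  exact ((AffineSpace.SpecIso n (CommRingCat.of ℂ)).inv.birationalOver _ _
    (AffineSpace.SpecIso_inv_over (n := n) (CommRingCat.of ℂ))).symm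

end Crest.Agent.X262.Brg.Bir
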