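import Crest.Agent.X262.Brg.Bir
import Crest.Agent.R278.Dim

/-!
# Row 262, bridge (helper19): the affine chart of a smooth cubic

* `dim_trdeg`          : Krull dimension = transcendence degree for f.g. domains;
* `exists_common_zero` : fewer than `n` polynomials in `n` variables vanishing at `p` have another
                         common zero;
* `prime_dehom`        : the dehomogenisation of a smooth form is prime;
* `chart_isDomain`, `chart_trdeg`, `equiv_of_rational`.
-/

set_option autoImplicit false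

open MvPolynomial AlgebraicGeometry
open Crest.AlgGeometry

noncomputable section

namespace Crest.Agent.X262.Brg.Cubic

/-- Krull dimension = transcendence degree -/
theorem dim_trdeg (k C : Type) [Field k] [CommRing C] [IsDomain C] [Algebra k C]
    [Algebra.FiniteType k C] : ∃ d : ℕ, ringKrullDim C = d ∧ Algebra.trdeg k C = d := by
  obtain ⟨s, g, hg, hint⟩ := exists_integral_inj_algHom_of_fg k C
  let _ : Algebra (MvPolynomial (Fin s) k) C := g.toRingHom.toAlgebra
  have : IsScalarTower k (MvPolynomial (Fin s) k) C := IsScalarTower.of_algebraMap_eq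
    (fun c => (g.commutes c).symm)
  have : Algebra.IsIntegral (MvPolynomial (Fin s) k) C := ⟨hint⟩
  have : FaithfulSMul (MvPolynomial (Fin s) k) C :=
    (faithfulSMul_iff_algebraMap_injective _ _).2 hg
  have h1 : ringKrullDim C = ringKrullDim (MvPolynomial (Fin s) k) :=
    R278.ringKrullDim_eq_of_isIntegral hg
  rw [MvPolynomial.ringKrullDim_of_isNoetherianRing, ringKrullDim_eq_zero_of_field, zero_add,
    Nat.card_eq_fintype_card, Fintype.card_fin] at h1
  have halg : Algebra.IsAlgebraic (MvPolynomial (Fin s) k) C := inferInstance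
  have h3 := trdeg_add_eq k (MvPolynomial (Fin s) k) (A := C)
  rw [trdeg_eq_zero_iff.2 halg, add_zero, MvPolynomial.trdeg_of_isDomain] at h3
  exact ⟨s, h1, by rw [← h3]; simp⟩

theorem trdeg_frac (k A K : Type) [Field k] [CommRing A] [IsDomain A] [Algebra k A] [Field K]
    [Algebra A K] [IsFractionRing A K] [Algebra k K] [IsScalarTower k A K] :
    Algebra.trdeg k K = Algebra.trdeg k A := by
  have halg : Algebra.IsAlgebraic A K := IsLocalization.isAlgebraic K (nonZeroDivisors A)
  have h3 := trdeg_add_eq k A (A := K)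
  rw [trdeg_eq_zero_iff.2 halg, add_zero] at h3
  exact h3.symm

variable {k : Type} [Field k] {n : ℕ}

theorem le_height_point (p : Fin n → k) :
    (n : ℕ∞) ≤ (vanishingIdeal k ({p} : Set (Fin n → k))).height := by
  let P : ℕ → Ideal (MvPolynomial (Fin n) k) := fun j => RingHom.ker
    (aeval (fun i : Fin n => if (i : ℕ) < j then C (p i) else X i) :
      MvPolynomial (Fin n) k →ₐ[k] MvPolynomial (Fin n) k)
  have hP : ∀ j, (P j).IsPrime := fun j => RingHom.ker_isPrime _
  have hle : ∀ j, P j ≤ P (j + 1) := fun j f hf => by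
    have h : (aeval (fun i : Fin n => if (i : ℕ) < j + 1 then C (p i) else X i) :
        MvPolynomial (Fin n) k →ₐ[k] MvPolynomial (Fin n) k) =
        (aeval (fun i : Fin n => if (i : ℕ) < j + 1 then C (p i) else X i)).comp
          (aeval (fun i : Fin n => if (i : ℕ) < j then C (p i) else X i)) := by
      ext1 i
      by_cases hi : (i : ℕ) < j
      · simp [hi, hi.le]
      · simp [hi]
    change aeval _ f = 0 at hf ⊢
    rw [h, AlgHom.comp_apply, hf, map_zero]
  have key : ∀ j ≤ n, (j : ℕ∞) ≤ (P j).height := by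
    intro j
    induction j with
    | zero => simp
    | succ j ih =>
      intro hj
      have := hP j
      have := hP (j + 1)
      refine le_trans ?_ (Ideal.height_add_one_le_of_lt_of_isPrime (I := P j) ((hle j).lt_of_ne ?_))
      · push_cast
        gcongr
        exact ih (by omega)
      · intro h
        have h1 : (X ⟨j, hj⟩ - C (p ⟨j, hj⟩) : MvPolynomial (Fin n) k) ∈ P (j + 1) := by
          change aeval _ _ = 0
          simp
        rw [← h] at h1
        change aeval _ _ = 0 at h1
        simp only [map_sub, aeval_X, lt_self_iff_false, if_false, algHom_C, algebraMap_eq,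
          sub_eq_zero] at h1
        have h2 := congrArg (eval fun i => p i + 1) h1
        simp at h2
  refine (key n le_rfl).trans (Ideal.height_mono fun f hf => ?_)
  rw [mem_vanishingIdeal_singleton_iff]
  have h : (aeval p : MvPolynomial (Fin n) k →ₐ[k] k) = (aeval p).comp
      (aeval (fun i : Fin n => if (i : ℕ) < n then C (p i) else X i)) := by
    ext1 i
    simp
  change aeval _ f = 0 at hf
  rw [h, AlgHom.comp_apply, hf, map_zero]

/-- fewer than `n` equations never cut out an isolated single point -/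
theorem exists_common_zero [IsAlgClosed k] (s : Finset (MvPolynomial (Fin n) k)) (hs : s.card < n)
    (p : Fin n → k) (hp : ∀ g ∈ s, eval p g = 0) : ∃ q, q ≠ p ∧ ∀ g ∈ s, eval q g = 0 := by
  by_contra! h
  have h1 : zeroLocus k (Ideal.span (s : Set (MvPolynomial (Fin n) k))) = {p} := by
    rw [zeroLocus_span]
    ext q
    refine ⟨fun hq => ?_, ?_⟩
    · by_contra hne
      obtain ⟨g, hg, h0⟩ := h q hne
      exact h0 (hq g hg)
    · rintro rfl
      exact hp
  have h2 := vanishingIdeal_zeroLocus_eq_radical (K := k)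
    (Ideal.span (s : Set (MvPolynomial (Fin n) k)))
  rw [h1] at h2
  have h3 : vanishingIdeal k ({p} : Set (Fin n → k)) ∈
      (Ideal.span (s : Set (MvPolynomial (Fin n) k))).minimalPrimes := by
    rw [← Ideal.radical_minimalPrimes, ← h2, Ideal.minimalPrimes_eq_subsingleton_self]
    rfl
  have h4 := (le_height_point p).trans (Ideal.height_le_card_of_mem_minimalPrimes_span_finset h3)
  exact hs.not_ge (by exact_mod_cast h4)

/-- dehomogenisation `x₀ = 1` -/
def deh : MvPolynomial (Fin (n + 1)) k →ₐ[k] MvPolynomial (Fin n) k := aeval (Fin.cons 1 X)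

/-- homogenisation in degree `a` -/
def hom (a : ℕ) (g : MvPolynomial (Fin n) k) : MvPolynomial (Fin (n + 1)) k :=
  ∑ i ∈ Finset.range (a + 1), X 0 ^ (a - i) * rename Fin.succ (homogeneousComponent i g)

theorem hom_isHomogeneous (a : ℕ) (g : MvPolynomial (Fin n) k) : (hom a g).IsHomogeneous a := by
  refine IsHomogeneous.sum _ _ _ fun i hi => ?_
  have h := (isHomogeneous_X_pow (R := k) (0 : Fin (n + 1)) (a - i)).mul
    ((homogeneousComponent_isHomogeneous i g).rename_isHomogeneous (f := Fin.succ))
  rwa [Nat.sub_add_cancel (Nat.lt_succ_iff.1 (Finset.mem_range.1 hi))] at h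

theorem deh_rename (g : MvPolynomial (Fin n) k) : deh (rename Fin.succ g) = g := by
  rw [deh, aeval_rename]
  exact aeval_X_left_apply g

theorem deh_X0 : deh (X 0 : MvPolynomial (Fin (n + 1)) k) = 1 := by simp [deh]

theorem deh_hom {a : ℕ} {g : MvPolynomial (Fin n) k} (h : g.totalDegree ≤ a) :
    deh (hom a g) = g := by
  simp only [hom, map_sum, map_mul, map_pow, deh_X0, one_pow, one_mul, deh_rename]
  conv_rhs => rw [← sum_homogeneousComponent g]
  refine (Finset.sum_subset (Finset.range_subset_range.2 (by omega)) fun i _ hi => ?_).symm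
  exact homogeneousComponent_eq_zero _ _ (by simpa using hi)

theorem eval_smul {σ : Type} {F : MvPolynomial σ k} {d : ℕ} (hF : F.IsHomogeneous d) (c : k)
    (x : σ → k) : eval (c • x) F = c ^ d * eval x F := by
  rw [eval_eq, eval_eq, Finset.mul_sum]
  refine Finset.sum_congr rfl fun m hm => ?_
  simp only [Pi.smul_apply, smul_eq_mul, mul_pow, Finset.prod_mul_distrib,
    Finset.prod_pow_eq_pow_sum]
  rw [← hF.degree_eq_sum_deg_support hm]
  ring

theorem eval_deh (F : MvPolynomial (Fin (n + 1)) k) (y : Fin n → k) :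
    eval y (deh F) = eval (Fin.cons 1 y : Fin (n + 1) → k) F := by
  have h : (aeval y).comp (deh (k := k) (n := n)) = aeval (Fin.cons 1 y : Fin (n + 1) → k) := by
    ext1 i
    refine Fin.cases ?_ (fun i => ?_) i <;> simp [deh]
  exact DFunLike.congr_fun h F

theorem eq_of_deh [Infinite k] {F G : MvPolynomial (Fin (n + 1)) k} {d : ℕ}
    (hF : F.IsHomogeneous d) (hG : G.IsHomogeneous d) (h : deh F = deh G) : F = G := by
  refine mul_left_cancel₀ (X_ne_zero (0 : Fin (n + 1))) (MvPolynomial.funext fun x => ?_)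
  by_cases h0 : x 0 = 0
  · simp [h0]
  · have hx : x = x 0 • (Fin.cons 1 fun i => x i.succ / x 0 : Fin (n + 1) → k) := by
      funext i
      refine Fin.cases ?_ (fun i => ?_) i
      · simp
      · simp [mul_div_cancel₀ _ h0]
    rw [map_mul, map_mul, hx, eval_smul hF, eval_smul hG, ← eval_deh F, ← eval_deh G, h]

theorem totalDegree_deh (F : MvPolynomial (Fin (n + 1)) k) :
    (deh F).totalDegree ≤ F.totalDegree := by
  rw [deh, aeval_def, eval₂_eq]
  refine totalDegree_finsetSum_le fun m hm => ?_
  rw [algebraMap_eq]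
  refine (totalDegree_mul _ _).trans ?_
  rw [totalDegree_C, zero_add]
  refine (totalDegree_finsetProd _ _).trans (le_trans ?_ (le_totalDegree hm))
  refine Finset.sum_le_sum fun i _ => (totalDegree_pow _ _).trans ?_
  refine Fin.cases ?_ (fun i => ?_) i <;> simp

/-- smoothness of the projective hypersurface `F = 0` -/
def Sm {σ : Type} (F : MvPolynomial σ k) : Prop :=
  ∀ p : σ → k, p ≠ 0 → eval p F = 0 → ∃ i, eval p (pderiv i F) ≠ 0

theorem Sm.not_mul [IsAlgClosed k] (hn : 2 < n) {G H : MvPolynomial (Fin n) k} {a b : ℕ}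
    (hG : G.IsHomogeneous a) (hH : H.IsHomogeneous b) (ha : a ≠ 0) (hb : b ≠ 0) : ¬ Sm (G * H) := by
  classical
  intro h
  have e0 : ∀ {G : MvPolynomial (Fin n) k} {a : ℕ}, G.IsHomogeneous a → a ≠ 0 →
      eval (0 : Fin n → k) G = 0 := fun {G a} hG ha => by
    simpa [ha] using eval_smul hG 0 0
  obtain ⟨q, hq, h1⟩ := exists_common_zero {G, H} (Finset.card_le_two.trans_lt hn) 0 (by
    simp only [Finset.mem_insert, Finset.mem_singleton, forall_eq_or_imp, forall_eq]
    exact ⟨e0 hG ha, e0 hH hb⟩)
  have h2 := h1 G (by simp)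
  have h3 := h1 H (by simp)
  obtain ⟨i, hi⟩ := h q hq (by rw [map_mul, h2, zero_mul])
  apply hi
  simp [h2, h3]

/-- the dehomogenisation of a smooth form of degree `≥ 2` in `≥ 3` variables is prime -/
theorem prime_deh [IsAlgClosed k] (hn : 2 ≤ n) {F : MvPolynomial (Fin (n + 1)) k} {d : ℕ}
    (hd : 2 ≤ d) (hF : F.IsHomogeneous d) (hs : Sm F) : Prime (deh F) := by
  have key : ∀ (a b : ℕ) (g h : MvPolynomial (Fin n) k), a + b = d → a ≠ 0 → b ≠ 0 →
      g.totalDegree ≤ a → h.totalDegree ≤ b → deh F ≠ g * h := by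
    intro a b g h hab ha hb hg hh he
    have h1 : F = hom a g * hom b h := eq_of_deh hF
      (hab ▸ (hom_isHomogeneous a g).mul (hom_isHomogeneous b h))
      (by rw [map_mul, deh_hom hg, deh_hom hh, he])
    exact Sm.not_mul (by omega) (hom_isHomogeneous a g) (hom_isHomogeneous b h) ha hb (h1 ▸ hs)
  have hdeg := (totalDegree_deh F).trans hF.totalDegree_le
  have h0 : (deh F).totalDegree ≠ 0 := fun h =>
    key 1 (d - 1) 1 (deh F) (by omega) one_ne_zero (by omega) (by simp) (by omega) (one_mul _).symm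
  refine Irreducible.prime ⟨fun hu => h0 (isUnit_iff_totalDegree_of_isReduced.1 hu).2, ?_⟩
  intro g h he
  by_contra! hc
  have hg : g ≠ 0 := by rintro rfl; simp [he] at h0
  have hh : h ≠ 0 := by rintro rfl; simp [he] at h0
  have nz : ∀ {g : MvPolynomial (Fin n) k}, g ≠ 0 → ¬ IsUnit g → g.totalDegree ≠ 0 := by
    intro g hg hu h
    rw [totalDegree_eq_zero_iff_eq_C] at h
    rw [h] at hg hu
    exact hu ((Ne.isUnit fun h => hg (by rw [h, C_0])).map C)
  have h1 := totalDegree_mul_of_isDomain hg hh
  have h2 := nz hg hc.1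
  have h3 := nz hh hc.2
  rw [← he] at h1
  exact key g.totalDegree (d - g.totalDegree) g h (by omega) h2 (by omega) le_rfl (by omega) he

/-- a hypersurface has dimension `n - 1` -/
theorem trdeg_quot [IsAlgClosed k] {f : MvPolynomial (Fin (n + 1)) k} (hf : Prime f) :
    Algebra.trdeg k (MvPolynomial (Fin (n + 1)) k ⧸ Ideal.span {f}) = n := by
  have : (Ideal.span {f}).IsPrime := (Ideal.span_singleton_prime hf.ne_zero).2 hf
  obtain ⟨d, h1, h2⟩ := dim_trdeg k (MvPolynomial (Fin (n + 1)) k ⧸ Ideal.span {f})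
  obtain ⟨M, hM, hle⟩ := Ideal.exists_le_maximal _ this.ne_top
  obtain ⟨p, rfl⟩ := isMaximal_iff_eq_vanishingIdeal_singleton.1 hM
  have h3 := Ideal.height_le_ringKrullDim_quotient_add_one (hle (Ideal.mem_span_singleton_self f))
  have h4 := ringKrullDim_quotient_succ_le_of_nonZeroDivisor
    (mem_nonZeroDivisors_of_ne_zero hf.ne_zero)
  have h5 : ((n + 1 : ℕ) : WithBot ℕ∞) ≤ (vanishingIdeal k ({p} : Set (Fin (n + 1) → k))).height := by
    exact_mod_cast le_height_point p
  rw [MvPolynomial.ringKrullDim_of_isNoetherianRing, ringKrullDim_eq_zero_of_field, zero_add,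
    Nat.card_eq_fintype_card, Fintype.card_fin, h1] at h4
  rw [h1] at h3
  have h6 : n + 1 ≤ d + 1 := by exact_mod_cast h5.trans h3
  have h7 : d + 1 ≤ n + 1 := by exact_mod_cast h4
  rw [h2, show d = n by omega]

theorem chart_eq (F : MvPolynomial (Fin 6) ℂ) :
    aeval (![1, X 0, X 1, X 2, X 3, X 4] : Fin 6 → MvPolynomial (Fin 5) ℂ) F = deh F := by
  rw [deh]
  congr 2
  funext i
  fin_cases i <;> rfl

variable {F : MvPolynomial (Fin 6) ℂ}

theorem chart_isDomain (hF : F.IsHomogeneous 3) (hs : Sm F) : IsDomain (cubicAffineChart F) := by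
  have h := prime_deh (n := 5) (by norm_num) (by norm_num) hF hs
  rw [← chart_eq] at h
  exact (Ideal.Quotient.isDomain_iff_prime _).2 ((Ideal.span_singleton_prime h.ne_zero).2 h)

theorem chart_trdeg (hF : F.IsHomogeneous 3) (hs : Sm F) :
    Algebra.trdeg ℂ (cubicAffineChart F) = 4 := by
  have h := prime_deh (n := 5) (by norm_num) (by norm_num) hF hs
  rw [← chart_eq] at h
  exact trdeg_quot (n := 4) h

/-- a rational domain of transcendence degree `d` has function field `ℂ(x₁, …, x_d)` -/
theorem equiv_of_rational' {A : Type} [CommRing A] [Algebra ℂ A] [IsDomain A]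
    (K : Type) [Field K] [Algebra A K] [IsFractionRing A K] [Algebra ℂ K] [IsScalarTower ℂ A K]
    {d : ℕ} (hd : Algebra.trdeg ℂ A = d) (h : Scheme.IsRationalOver (toSpecComplex A)) :
    Nonempty (K ≃ₐ[ℂ] FractionRing (MvPolynomial (Fin d) ℂ)) := by
  obtain ⟨σ, ⟨e⟩⟩ := Bir.exists_equiv_of_isRationalOver K h
  have h1 := e.trdeg_eq
  rw [trdeg_frac ℂ A K, trdeg_frac ℂ (MvPolynomial σ ℂ), MvPolynomial.trdeg_of_isDomain, hd,
    Cardinal.lift_id] at h1
  obtain ⟨u⟩ : Nonempty (σ ≃ Fin d) := Cardinal.eq.1 (by rw [← h1]; simp)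
  exact ⟨e.trans (IsFractionRing.algEquivOfAlgEquiv (renameEquiv ℂ u))⟩

/-- **a rational smooth cubic fourfold has function field `ℂ(x₁, …, x₄)`** -/
theorem equiv_of_rational (hF : F.IsHomogeneous 3) (hs : Sm F) (K : Type) [Field K]
    [Algebra (cubicAffineChart F) K] [IsFractionRing (cubicAffineChart F) K] [Algebra ℂ K]
    [IsScalarTower ℂ (cubicAffineChart F) K]
    (h : Scheme.IsRationalOver (toSpecComplex (cubicAffineChart F))) :
    Nonempty (K ≃ₐ[ℂ] FractionRing (MvPolynomial (Fin 4) ℂ)) :=
  have := chart_isDomain hF hs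
  equiv_of_rational' K (d := 4) (chart_trdeg hF hs) h

end Crest.Agent.X262.Brg.Cubic
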