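import Crest.Agent.X262.Brg.Sym

/-!
# Row 262, bridge (helper19): from points to function fields

* `mem_of_points`   : if the general fibres of a rational map are orbits of finitely many
                      automorphisms, the function field of the image is the fixed field;
* `top_of_points`   : generically injective maps are birational onto the image;
* `symSq_of_points` : the last conjunct of S0400 from a map `S × S ⇢ Spec B` whose general fibres
                      are swap orbits.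
-/

set_option autoImplicit false

open MvPolynomial AlgebraicGeometry
open scoped TensorProduct
open Crest.AlgGeometry

noncomputable section

namespace Crest.Agent.X262.Brg.Inj

open Bir Brg.Cubic Brg.Sym

variable {R L : Type} [CommRing R] [Algebra ℂ R] [Field L] [Algebra ℂ L]

theorem ext_of_fr {Ω : Type} [Field Ω] [Algebra ℂ Ω] {ψ : R →ₐ[ℂ] L} (hf : Fr ψ.range)
    {σ σ' : L →ₐ[ℂ] Ω} (h : ∀ r, σ (ψ r) = σ' (ψ r)) : σ = σ' := by
  ext x
  obtain ⟨_, ⟨d, rfl⟩, h0, y, hy⟩ := hf x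
  change ψ d ≠ 0 at h0
  change ψ y = x * ψ d at hy
  refine mul_right_cancel₀ ((map_ne_zero σ).2 h0) ?_
  rw [← map_mul, ← hy, h, h, ← map_mul, ← hy]

/-- specialisation of two geometric points -/
theorem exists_spec [Algebra.FiniteType ℂ R] {Ω : Type} [Field Ω] [Algebra ℂ Ω] (a b : R →ₐ[ℂ] Ω) :
    ∃ (C : Subalgebra ℂ Ω) (a' b' : R →ₐ[ℂ] C), (∀ r, (a' r : Ω) = a r) ∧ (∀ r, (b' r : Ω) = b r) ∧
      ∀ u : C, u ≠ 0 → ∃ χ : C →ₐ[ℂ] ℂ, χ u ≠ 0 := by
  have : Algebra.FiniteType ℂ (a.range ⊔ b.range : Subalgebra ℂ Ω) :=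
    (Subalgebra.fg_iff_finiteType _).1 ((fg_range a).sup (fg_range b))
  exact ⟨a.range ⊔ b.range,
    a.codRestrict _ fun r => (le_sup_left : a.range ≤ a.range ⊔ b.range) ⟨r, rfl⟩,
    b.codRestrict _ fun r => (le_sup_right : b.range ≤ a.range ⊔ b.range) ⟨r, rfl⟩,
    fun _ => rfl, fun _ => rfl, R270.TSame_927.exists_algHom_ne_zero⟩

/-- **fibres are orbits ⇒ the function field of the image is the fixed field** -/
theorem mem_of_points [Algebra.FiniteType ℂ R] {ψ : R →ₐ[ℂ] L} (hf : Fr ψ.range)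
    (K : IntermediateField ℂ L) {κ : Type} [Finite κ] (t : κ → R →ₐ[ℂ] R) (τ : κ → L →ₐ[ℂ] L)
    (hτ : ∀ j r, τ j (ψ r) = ψ (t j r)) {h : R} (hh : ψ h ≠ 0)
    (H : ∀ χ χ' : R →ₐ[ℂ] ℂ, χ h ≠ 0 → χ' h ≠ 0 →
      (∀ z ∈ K, ∀ n d, z * ψ d = ψ n → χ n * χ' d = χ' n * χ d) → ∃ j, χ' = χ.comp (t j)) :
    Algebra.IsAlgebraic K L ∧ ∀ x, (∀ j, τ j x = x) → x ∈ K := by
  classical
  have := Fintype.ofFinite κ
  let a : L →ₐ[ℂ] AlgebraicClosure L := IsScalarTower.toAlgHom ℂ L _
  have key : ∀ σ : L →ₐ[K] AlgebraicClosure L, ∃ j, σ.restrictScalars ℂ = a.comp (τ j) := by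
    intro σ
    by_contra! hc
    choose r hr using fun j => not_forall.1 fun h => hc j (ext_of_fr hf h)
    obtain ⟨C, a', b', ha, hb, hC⟩ := exists_spec (a.comp ψ) ((σ.restrictScalars ℂ).comp ψ)
    obtain ⟨χ, hχ⟩ := hC (a' h * b' h * ∏ j, (b' (r j) - a' (t j (r j)))) (by
      refine mul_ne_zero (mul_ne_zero (fun h0 => ?_) fun h0 => ?_)
        (Finset.prod_ne_zero_iff.2 fun j _ h0 => hr j ?_)
      · exact (map_ne_zero a).2 hh ((ha h).symm.trans (congrArg Subtype.val h0))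
      · exact (map_ne_zero σ).2 hh ((hb h).symm.trans (congrArg Subtype.val h0))
      · have h1 := congrArg Subtype.val (sub_eq_zero.1 h0)
        rw [ha, hb] at h1
        exact h1.trans (congrArg a (hτ j _).symm))
    rw [map_mul, map_mul, map_prod] at hχ
    obtain ⟨j, hj⟩ := H (χ.comp a') (χ.comp b') (left_ne_zero_of_mul (left_ne_zero_of_mul hχ))
      (right_ne_zero_of_mul (left_ne_zero_of_mul hχ)) fun z hz n d e => by
        have h1 : a' n * b' d = b' n * a' d := by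
          apply Subtype.ext
          rw [Subalgebra.coe_mul, Subalgebra.coe_mul, ha, ha, hb, hb]
          change a (ψ n) * σ (ψ d) = σ (ψ n) * a (ψ d)
          have h2 : σ z = a z := σ.commutes ⟨z, hz⟩
          rw [← e, map_mul, map_mul, h2]
          ring
        simpa using congrArg χ h1
    refine Finset.prod_ne_zero_iff.1 (right_ne_zero_of_mul hχ) j (Finset.mem_univ j) ?_
    rw [map_sub, sub_eq_zero]
    exact DFunLike.congr_fun hj (r j)
  have halg : Algebra.IsAlgebraic K L := by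
    by_contra hn
    have := Algebra.transcendental_iff_not_isAlgebraic.2 hn
    choose f hf using key
    have : Finite (Field.Emb K L) := Finite.of_injective f fun σ σ' e =>
      AlgHom.restrictScalars_injective ℂ ((hf σ).trans (e ▸ (hf σ').symm))
    exact not_finite (Field.Emb K L)
  refine ⟨halg, fun x hx => ?_⟩
  have h1 : (minpoly K x).rootSet (AlgebraicClosure L) ⊆ {a x} := by
    rw [← Algebra.IsAlgebraic.range_eval_eq_rootSet_minpoly]
    rintro _ ⟨σ, rfl⟩
    obtain ⟨j, hj⟩ := key σ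
    exact (DFunLike.congr_fun hj x).trans (congrArg a (hx j))
  have h2 := Polynomial.card_rootSet_eq_natDegree (K := AlgebraicClosure L)
    (Algebra.IsSeparable.isSeparable K x) (IsAlgClosed.splits _)
  have h3 := minpoly.natDegree_pos (Algebra.IsIntegral.isIntegral (R := K) x)
  have h4 := Set.card_le_card h1
  rw [h2, Set.card_singleton] at h4
  obtain ⟨y, rfl⟩ := minpoly.natDegree_eq_one_iff.1 (le_antisymm h4 h3)
  exact y.2

/-- **generically injective ⇒ birational onto the image** -/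
theorem top_of_points [Algebra.FiniteType ℂ R] {ψ : R →ₐ[ℂ] L} (hf : Fr ψ.range)
    (K : IntermediateField ℂ L) {h : R} (hh : ψ h ≠ 0)
    (H : ∀ χ χ' : R →ₐ[ℂ] ℂ, χ h ≠ 0 → χ' h ≠ 0 →
      (∀ z ∈ K, ∀ n d, z * ψ d = ψ n → χ n * χ' d = χ' n * χ d) → χ' = χ) : K = ⊤ :=
  top_unique fun x _ => (mem_of_points hf K (fun _ : Unit => AlgHom.id ℂ R)
    (fun _ => AlgHom.id ℂ L) (fun _ _ => rfl) hh
    fun χ χ' h1 h2 h3 => ⟨(), H χ χ' h1 h2 h3⟩).2 x fun _ => rfl

/-- the map to the field generated by the image -/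
def res {B : Type} [CommRing B] [Algebra ℂ B] (φ : B →ₐ[ℂ] L) :
    B →ₐ[ℂ] IntermediateField.adjoin ℂ (φ.range : Set L) :=
  φ.codRestrict (IntermediateField.adjoin ℂ (φ.range : Set L)).toSubalgebra
    fun b => IntermediateField.subset_adjoin _ _ ⟨b, rfl⟩

theorem gen_of_inj {B : Type} [CommRing B] [Algebra ℂ B] {φ : B →ₐ[ℂ] L}
    (hφ : Function.Injective φ) : Gen (res φ) := by
  refine Gen.of_inj (fun x y h => hφ (congrArg Subtype.val h)) fun x => ?_
  obtain ⟨r, hr, s, hs, e⟩ := IntermediateField.mem_adjoin_iff_div.1 x.2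
  rw [Algebra.adjoin_eq] at hr hs
  obtain ⟨r, rfl⟩ := hr
  obtain ⟨s, rfl⟩ := hs
  by_cases h0 : φ s = 0
  · refine ⟨1, 0, by simp, Subtype.ext ?_⟩
    change x.1 * φ 1 = φ 0
    rw [e]
    change φ r / φ s * _ = _
    simp [h0]
  · refine ⟨s, r, fun h => h0 (congrArg Subtype.val h), Subtype.ext ?_⟩
    change x.1 * φ s = φ r
    rw [e]
    exact div_mul_cancel₀ _ h0

/-- evaluation at a pair of points -/
abbrev ev {A : Type} [CommRing A] [Algebra ℂ A] (p q : A →ₐ[ℂ] ℂ) : A ⊗[ℂ] A →ₐ[ℂ] ℂ :=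
  Algebra.TensorProduct.productMap p q

/-- **the symmetric square from points**: `φ` is a swap invariant rational map from `S × S`
(`S = Spec A`) to a fourfold `Spec B`, whose fibres over `h ≠ 0` are swap orbits. -/
theorem symSq_of_points {B : Type} [CommRing B] [Algebra ℂ B] [Algebra.FiniteType ℂ B] [IsDomain B]
    (hB : ringKrullDim B ≤ 4) {A : Type} [CommRing A] [Algebra ℂ A] [Algebra.FiniteType ℂ A]
    [IsDomain A] (hA : ringKrullDim A = 2) {ι : A →ₐ[ℂ] L} {τ : L →ₐ[ℂ] L}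
    (hτ : ∀ a, τ (τ (ι a)) = ι a) (hL : Algebra.trdeg ℂ L = 4) (hf : Fr (pr ι τ).range)
    (φ : B →ₐ[ℂ] L) (hφ : ∀ b, τ (φ b) = φ b) {h : A ⊗[ℂ] A} (hh : h ≠ 0)
    (H : ∀ p q p' q' : A →ₐ[ℂ] ℂ, ev p q h ≠ 0 → ev p' q' h ≠ 0 →
      (∀ b n d, φ b * pr ι τ d = pr ι τ n → ev p q n * ev p' q' d = ev p' q' n * ev p q d) →
      (p' = p ∧ q' = q) ∨ (p' = q ∧ q' = p)) : SymSqOf B := by
  have : IsDomain (A ⊗[ℂ] A) := R270.TSame_927.isDomain_tensor
  have : Algebra.FiniteType ℂ (A ⊗[ℂ] A) := .trans (S := A) inferInstance inferInstance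
  have hi := inj_of_dim _ hf (dim_tensor_le A (d := 2) hA) hL
  let K := IntermediateField.adjoin ℂ (φ.range : Set L)
  have e : ∀ χ : A ⊗[ℂ] A →ₐ[ℂ] ℂ, χ = ev (χ.comp Algebra.TensorProduct.includeLeft)
      (χ.comp Algebra.TensorProduct.includeRight) := fun χ => by
    ext a <;> simp [← Algebra.TensorProduct.one_def]
  obtain ⟨halg, hK⟩ := mem_of_points hf K
    (fun j : Bool => bif j then AlgHom.id ℂ _ else (sw A).toAlgHom)
    (fun j : Bool => bif j then AlgHom.id ℂ L else τ)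
    (fun j r => by
      cases j
      · exact (pr_sw hτ r).symm
      · rfl) ((map_ne_zero_iff _ hi).2 hh) fun χ χ' h1 h2 h3 => by
      rw [e χ] at h1 h3
      rw [e χ'] at h2 h3
      rcases H _ _ _ _ h1 h2 fun b n d =>
        h3 _ (IntermediateField.subset_adjoin _ _ ⟨b, rfl⟩) n d with h4 | h4
      · exact ⟨true, by rw [e χ', h4.1, h4.2, ← e χ]; rfl⟩
      · refine ⟨false, ?_⟩
        rw [e χ', h4.1, h4.2]
        ext a <;> simp [← Algebra.TensorProduct.one_def]
  have hfix : ∀ x ∈ K, τ x = x := fun x hx => by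
    induction hx using IntermediateField.adjoin_induction with
    | mem x hx => obtain ⟨b, rfl⟩ := hx; exact hφ b
    | algebraMap c => exact τ.commutes c
    | add x y _ _ hx hy => rw [map_add, hx, hy]
    | inv x _ hx => rw [map_inv₀, hx]
    | mul x y _ _ hx hy => rw [map_mul, hx, hy]
  have h4 : Algebra.trdeg ℂ K = (4 : ℕ) := by
    have h5 := trdeg_add_eq ℂ K (A := L)
    rw [trdeg_eq_zero_iff.2 halg, add_zero, hL] at h5
    exact h5
  have h6 : Function.Injective (res φ) := inj_of_dim _ (fr_of_adjoin (by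
    refine IntermediateField.map_injective K.val ?_
    rw [IntermediateField.adjoin_map, ← AlgHom.fieldRange_eq_map, IntermediateField.fieldRange_val]
    congr 1
    ext x
    exact ⟨by rintro ⟨_, ⟨b, rfl⟩, rfl⟩; exact ⟨b, rfl⟩, by
      rintro ⟨b, rfl⟩; exact ⟨_, ⟨b, rfl⟩, rfl⟩⟩)) hB h4
  obtain ⟨ψ, hψ⟩ := gen_symm hτ hi hf K.val fun x =>
    ⟨fun hx => ⟨⟨x, hK x fun j => by cases j <;> simp [hx]⟩, rfl⟩,
      by rintro ⟨y, rfl⟩; exact hfix y y.2⟩
  exact ⟨A, inferInstance, inferInstance, inferInstance, inferInstance, hA,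
    birationalOver_of_gen (gen_of_inj fun x y h => h6 (Subtype.ext h)) hψ⟩

end Crest.Agent.X262.Brg.Inj
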