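import Crest.Agent.X262.Top.Defs
import Crest.Agent.X262.Brg.Hyp0
import Crest.Agent.X262.Brg.Lines

/-!
# Row 262, bridge (helper19): `BrgStmt`, and `SymStmt` from the irreducibility of the Fano chart

* `hypOf`, `hypFree` : the structures `Hyp`;
* `brgStmt`          : `Top.BrgStmt`;
* `symStmt_of`       : `FanoDom → Top.SymStmt`.
-/

set_option autoImplicit false

open MvPolynomial AlgebraicGeometry
open Crest.AlgGeometry

noncomputable section

namespace Crest.Agent.X262.Brg.Main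

open Brg.Cubic Hyp0 X262.Top

variable {K : Type} [Field K] [Algebra ℂ K] {N : ℕ}

/-- a smooth hypersurface -/
def hypOf {G : MvPolynomial (Fin (N + 1)) ℂ} {d : ℕ} (hG : G.IsHomogeneous d) (hd : 2 ≤ d)
    (hs : Sm G) {x : Fin N → K} (hx : IntermediateField.adjoin ℂ (Set.range x) = ⊤)
    (h : GP G (Fin.cons 1 x : Fin (N + 1) → K)) : Hyp N G K :=
  ⟨Fin.cons 1 x, h.ne hG hd, frac_of_adjoin hx, fun i => h.smooth hG hs (h.ne hG hd i), h⟩

/-- projective space -/
def hypFree {x : Fin N → K} (h : AlgebraicIndependent ℂ x)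
    (hx : IntermediateField.adjoin ℂ (Set.range x) = ⊤) : Hyp N 0 K :=
  ⟨Fin.cons 1 x, (gp_free h).ne₀, frac_of_adjoin hx, (gp_free h).smooth₀, gp_free h⟩

theorem brgStmt : BrgStmt := fun _ hG h => by
  obtain ⟨K, _, _, x, z, h1, h2, h3, h4⟩ := exists_gp hG.1 hG.2 h
  exact ⟨K, inferInstance, inferInstance, ⟨hypFree h1 h2⟩,
    ⟨hypOf hG.1 (by norm_num) hG.2 h3 h4⟩, basis_of_free h1 h2⟩

/-- the chart of the variety of lines is a variety of dimension at most four -/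
def FanoDom : Prop := ∀ G : MvPolynomial (Fin 6) ℂ, SmCub G →
  IsDomain (fanoChart G) ∧ ringKrullDim (fanoChart G) ≤ 4

theorem symStmt_of (h : FanoDom) : SymStmt := by
  rintro D G hG ⟨F, _, _, _, d, L, _, _, -, ⟨S⟩, ⟨Λ⟩⟩
  obtain ⟨_, h2⟩ := h G hG
  exact Lines.symSq_of_lines h2 S.b Λ.ι Λ.τ Λ.inv Λ.gen Λ.dim Λ.a Λ.on Λ.fix

end Crest.Agent.X262.Brg.Main
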