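import Crest.Agent.X262.Brg.Cubic
import Crest.Agent.R270.TSame1_927

/-!
# Row 262, bridge (helper19): the symmetric square

* `finiteType_symm` : `symmSquare A` is of finite type;
* `inj_of_trdeg`    : `A ⊗ A → L` is injective if the dimensions match;
* `gen_symm`        : the function field of `symmSquare A` is the fixed field of the swap;
* `symSq_of`        : the last conjunct of S0400 from function fields.
-/

set_option autoImplicit false

open MvPolynomial AlgebraicGeometry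
open scoped TensorProduct
open Crest.AlgGeometry

noncomputable section

namespace Crest.Agent.X262.Brg.Sym

open Bir Brg.Cubic

section

variable (A : Type) [CommRing A] [Algebra ℂ A]

/-- the swap -/
abbrev sw : A ⊗[ℂ] A ≃ₐ[ℂ] A ⊗[ℂ] A := Algebra.TensorProduct.comm ℂ A A

variable {A}

theorem sw_sw (x : A ⊗[ℂ] A) : sw A (sw A x) = x :=
  (Algebra.TensorProduct.comm ℂ A A).symm_apply_apply x

theorem mem_symm {x : A ⊗[ℂ] A} : x ∈ symmSquare A ↔ sw A x = x := Iff.rfl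

variable (A)

instance : Algebra.IsIntegral (symmSquare A) (A ⊗[ℂ] A) := ⟨fun x => by
  let a : symmSquare A := ⟨x + sw A x, by rw [mem_symm, map_add, sw_sw, add_comm]⟩
  let b : symmSquare A := ⟨x * sw A x, by rw [mem_symm, map_mul, sw_sw, mul_comm]⟩
  refine ⟨Polynomial.X ^ 2 - Polynomial.C a * Polynomial.X + Polynomial.C b, by monicity!, ?_⟩
  simp only [Polynomial.eval₂_add, Polynomial.eval₂_sub, Polynomial.eval₂_mul, Polynomial.eval₂_C,
    Polynomial.eval₂_X, Polynomial.eval₂_X_pow]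
  change x ^ 2 - (x + sw A x) * x + x * sw A x = 0
  ring⟩

instance finiteType_symm [Algebra.FiniteType ℂ A] : Algebra.FiniteType ℂ (symmSquare A) := by
  have : Algebra.FiniteType ℂ (A ⊗[ℂ] A) := .trans (S := A) inferInstance inferInstance
  have : Algebra.FiniteType (symmSquare A) (A ⊗[ℂ] A) := .of_restrictScalars_finiteType ℂ _ _
  have : Module.Finite (symmSquare A) (A ⊗[ℂ] A) := Algebra.IsIntegral.finite
  exact ⟨fg_of_fg_of_fg ℂ (symmSquare A) (A ⊗[ℂ] A) Algebra.FiniteType.out Module.Finite.fg_top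
    Subtype.val_injective⟩

theorem dim_tensor_le [IsDomain A] [Algebra.FiniteType ℂ A] {d : ℕ} (hd : ringKrullDim A = d) :
    ringKrullDim (A ⊗[ℂ] A) ≤ (d + d : ℕ) := by
  obtain ⟨s, g, hg, hint⟩ := exists_integral_inj_algHom_of_fg ℂ A
  have h1 : ringKrullDim A = ringKrullDim (MvPolynomial (Fin s) ℂ) := by
    let _ : Algebra (MvPolynomial (Fin s) ℂ) A := g.toRingHom.toAlgebra
    have : Algebra.IsIntegral (MvPolynomial (Fin s) ℂ) A := ⟨hint⟩
    exact R278.ringKrullDim_eq_of_isIntegral hg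
  rw [MvPolynomial.ringKrullDim_of_isNoetherianRing, ringKrullDim_eq_zero_of_field, zero_add,
    Nat.card_eq_fintype_card, Fintype.card_fin, hd] at h1
  obtain rfl : d = s := by exact_mod_cast h1
  let G : MvPolynomial (Fin d ⊕ Fin d) ℂ →ₐ[ℂ] A ⊗[ℂ] A :=
    aeval (Sum.elim (fun i => g (X i) ⊗ₜ 1) fun i => 1 ⊗ₜ g (X i))
  have key : ∀ (u : A →ₐ[ℂ] A ⊗[ℂ] A) (v : Fin d → Fin d ⊕ Fin d),
      (∀ i, G (X (v i)) = u (g (X i))) → ∀ a, G.toRingHom.IsIntegralElem (u a) := by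
    intro u v h a
    obtain ⟨p, hp, h0⟩ := hint a
    have h2 : G.comp (rename v) = u.comp g := by
      ext1 i
      simpa using h i
    refine ⟨p.map (rename v : MvPolynomial (Fin d) ℂ →ₐ[ℂ] _).toRingHom, hp.map _, ?_⟩
    rw [Polynomial.eval₂_map]
    change Polynomial.eval₂ (G.comp (rename v)).toRingHom _ _ = 0
    rw [h2]
    have h3 := Polynomial.hom_eval₂ p g.toRingHom u.toRingHom a
    rw [h0, map_zero] at h3
    exact h3.symm
  have hG : G.toRingHom.IsIntegral := fun x => by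
    induction x with
    | zero => exact G.toRingHom.isIntegralElem_zero
    | add x y hx hy => exact hx.add _ hy
    | tmul a b =>
      have h2 := (key Algebra.TensorProduct.includeLeft Sum.inl (fun i => by simp [G]) a).mul _
        (key Algebra.TensorProduct.includeRight Sum.inr (fun i => by simp [G]) b)
      simpa using h2
  let _ : Algebra (MvPolynomial (Fin d ⊕ Fin d) ℂ) (A ⊗[ℂ] A) := G.toRingHom.toAlgebra
  have : Algebra.IsIntegral (MvPolynomial (Fin d ⊕ Fin d) ℂ) (A ⊗[ℂ] A) := ⟨hG⟩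
  have h4 : ringKrullDim (A ⊗[ℂ] A) ≤ ringKrullDim (MvPolynomial (Fin d ⊕ Fin d) ℂ) :=
    Order.krullDim_le_of_strictMono (fun p => PrimeSpectrum.comap (algebraMap _ _) p)
      fun p q hpq => Ideal.IsIntegral.comap_lt_comap (R := MvPolynomial (Fin d ⊕ Fin d) ℂ)
        (I := p.asIdeal) (J := q.asIdeal) hpq
  rw [MvPolynomial.ringKrullDim_of_isNoetherianRing, ringKrullDim_eq_zero_of_field, zero_add,
    Nat.card_eq_fintype_card, Fintype.card_sum, Fintype.card_fin] at h4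
  exact h4

end

variable {L : Type} [Field L] [Algebra ℂ L]

theorem isFractionRing_of_fr {S : Subalgebra ℂ L} (h : Fr S) : IsFractionRing S L :=
  IsFractionRing.of_field S L fun x =>
    let ⟨d, h1, h2, h3⟩ := h x
    ⟨⟨_, h3⟩, ⟨d, h1⟩, (eq_div_iff h2).2 rfl⟩

theorem fr_of_adjoin {S : Subalgebra ℂ L} (h : IntermediateField.adjoin ℂ (S : Set L) = ⊤) :
    Fr S := fun x => by
  obtain ⟨r, hr, s, hs, rfl⟩ := IntermediateField.mem_adjoin_iff_div.1
    (h ▸ IntermediateField.mem_top : x ∈ IntermediateField.adjoin ℂ (S : Set L))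
  rw [Algebra.adjoin_eq] at hr hs
  by_cases h0 : s = 0
  · exact ⟨1, S.one_mem, one_ne_zero, by simp [h0]⟩
  · exact ⟨s, hs, h0, by rwa [div_mul_cancel₀ _ h0]⟩

/-- a dominant map between varieties of the same dimension -/
theorem inj_of_dim {R : Type} [CommRing R] [Algebra ℂ R] [IsDomain R] [Algebra.FiniteType ℂ R]
    (ψ : R →ₐ[ℂ] L) (h : Fr ψ.range) {d : ℕ} (hR : ringKrullDim R ≤ d)
    (hL : Algebra.trdeg ℂ L = d) : Function.Injective ψ := by
  have := isFractionRing_of_fr h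
  have : Algebra.FiniteType ℂ ψ.range := (Subalgebra.fg_iff_finiteType _).1 (fg_range ψ)
  obtain ⟨e, h1, h2⟩ := dim_trdeg ℂ ψ.range
  rw [← trdeg_frac ℂ ψ.range L, hL] at h2
  obtain rfl : d = e := by exact_mod_cast h2
  rw [injective_iff_map_eq_zero]
  intro r hr
  by_contra h0
  have h3 := (ringKrullDim_succ_le_of_surjective ψ.rangeRestrict.toRingHom
    ψ.rangeRestrict_surjective (mem_nonZeroDivisors_of_ne_zero h0) (Subtype.ext hr)).trans hR
  rw [h1] at h3
  have h4 : d + 1 ≤ d := by exact_mod_cast h3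
  omega

/-- the map `A ⊗ A → L`, `a ⊗ b ↦ ι a * τ (ι b)` -/
def pr {A : Type} [CommRing A] [Algebra ℂ A] (ι : A →ₐ[ℂ] L) (τ : L →ₐ[ℂ] L) :
    A ⊗[ℂ] A →ₐ[ℂ] L := Algebra.TensorProduct.productMap ι (τ.comp ι)

theorem pr_tmul {A : Type} [CommRing A] [Algebra ℂ A] (ι : A →ₐ[ℂ] L) (τ : L →ₐ[ℂ] L) (a b : A) :
    pr ι τ (a ⊗ₜ b) = ι a * τ (ι b) := rfl

theorem pr_sw {A : Type} [CommRing A] [Algebra ℂ A] {ι : A →ₐ[ℂ] L} {τ : L →ₐ[ℂ] L}
    (hτ : ∀ a, τ (τ (ι a)) = ι a) (x : A ⊗[ℂ] A) : pr ι τ (sw A x) = τ (pr ι τ x) := by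
  induction x with
  | zero => simp
  | add x y hx hy => simp only [map_add, hx, hy]
  | tmul a b => rw [Algebra.TensorProduct.comm_tmul, pr_tmul, pr_tmul, map_mul, hτ, mul_comm]

variable {K : Type} [Field K] [Algebra ℂ K]

/-- the function field of the symmetric square is the fixed field of the swap -/
theorem gen_symm {A : Type} [CommRing A] [Algebra ℂ A] {ι : A →ₐ[ℂ] L} {τ : L →ₐ[ℂ] L}
    (hτ : ∀ a, τ (τ (ι a)) = ι a) (hi : Function.Injective (pr ι τ)) (hf : Fr (pr ι τ).range)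
    (j : K →ₐ[ℂ] L) (fix : ∀ x, τ x = x ↔ x ∈ j.range) :
    ∃ ψ : symmSquare A →ₐ[ℂ] K, Gen ψ := by
  let e : K ≃ₐ[ℂ] j.range := AlgEquiv.ofInjective j j.injective
  let ψ0 : symmSquare A →ₐ[ℂ] j.range := ((pr ι τ).comp (symmSquare A).val).codRestrict _
    fun x => (fix _).1 (by
      change τ (pr ι τ x) = pr ι τ x
      rw [← pr_sw hτ, mem_symm.1 x.2])
  let ψ : symmSquare A →ₐ[ℂ] K := e.symm.toAlgHom.comp ψ0
  have hψ : ∀ x, j (ψ x) = pr ι τ x := fun x =>
    congrArg Subtype.val (e.apply_symm_apply (ψ0 x))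
  refine ⟨ψ, Gen.of_inj (fun x y h => Subtype.ext (hi (by rw [← hψ, ← hψ, h]))) fun x => ?_⟩
  obtain ⟨_, ⟨b, rfl⟩, h0, a, ha⟩ := hf (j x)
  change pr ι τ b ≠ 0 at h0
  change pr ι τ a = j x * pr ι τ b at ha
  have hx : τ (j x) = j x := (fix _).2 ⟨x, rfl⟩
  refine ⟨⟨b * sw A b, by rw [mem_symm, map_mul, sw_sw, mul_comm]⟩, ⟨a * sw A b, hi ?_⟩,
    fun h => ?_, j.injective ?_⟩
  · change pr ι τ (sw A (a * sw A b)) = pr ι τ (a * sw A b)
    rw [map_mul, sw_sw, map_mul, map_mul, pr_sw hτ, pr_sw hτ, ha, map_mul, hx]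
    ring
  · have h1 := hψ ⟨b * sw A b, by rw [mem_symm, map_mul, sw_sw, mul_comm]⟩
    rw [h, map_zero, map_mul, pr_sw hτ] at h1
    exact mul_ne_zero h0 ((map_ne_zero τ).2 h0) h1.symm
  · change j (_ * _) = j _
    rw [map_mul, hψ, hψ, map_mul, map_mul, ha, mul_assoc]

/-- the last conjunct of S0400 for an algebra `B` -/
def SymSqOf (B : Type) [CommRing B] [Algebra ℂ B] : Prop :=
  ∃ (A : Type) (_ : CommRing A) (_ : Algebra ℂ A),
    IsDomain A ∧ Algebra.FiniteType ℂ A ∧ ringKrullDim A = 2 ∧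
    Scheme.BirationalOver (toSpecComplex B) (toSpecComplex ↥(symmSquare A))

/-- **the symmetric square from function fields**: `B` has function field `K`, the fixed field of
`τ` on a field `L` of transcendence degree `4`, generated by a finitely generated field `E` of
transcendence degree `2` and by its image under `τ`. -/
theorem symSq_of {B : Type} [CommRing B] [Algebra ℂ B] [Algebra.FiniteType ℂ B] {φ : B →ₐ[ℂ] K}
    (hφ : Gen φ) {E : Type} [Field E] [Algebra ℂ E] [Algebra.EssFiniteType ℂ E]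
    (hE : Algebra.trdeg ℂ E = 2) (hL : Algebra.trdeg ℂ L = 4) (ι : E →ₐ[ℂ] L) (τ : L →ₐ[ℂ] L)
    (hτ : ∀ a, τ (τ (ι a)) = ι a)
    (gen : IntermediateField.adjoin ℂ (Set.range ι ∪ Set.range fun a => τ (ι a)) = ⊤)
    (j : K →ₐ[ℂ] L) (fix : ∀ x, τ x = x ↔ x ∈ j.range) : SymSqOf B := by
  obtain ⟨s, hs⟩ := IntermediateField.fg_top_iff.2 ‹Algebra.EssFiniteType ℂ E›
  let A : Subalgebra ℂ E := Algebra.adjoin ℂ s
  have hA : Fr A := fr_of_adjoin (top_unique (hs ▸ IntermediateField.adjoin.mono _ _ _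
    Algebra.subset_adjoin))
  have := isFractionRing_of_fr hA
  have : Algebra.FiniteType ℂ A := (Subalgebra.fg_iff_finiteType _).1 ⟨s, rfl⟩
  obtain ⟨d, h1, h2⟩ := dim_trdeg ℂ A
  rw [← trdeg_frac ℂ A E, hE] at h2
  obtain rfl : 2 = d := by exact_mod_cast h2
  have : IsDomain (A ⊗[ℂ] A) := R270.TSame_927.isDomain_tensor
  have : Algebra.FiniteType ℂ (A ⊗[ℂ] A) := .trans (S := A) inferInstance inferInstance
  have key : ∀ u : E →ₐ[ℂ] L, (∀ a : A, u a ∈ (pr (ι.comp A.val) τ).range) →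
      Set.range u ⊆ IntermediateField.adjoin ℂ ((pr (ι.comp A.val) τ).range : Set L) := by
    rintro u hu _ ⟨x, rfl⟩
    obtain ⟨c, hc, h0, h3⟩ := hA x
    have h4 : u x = u (x * c) / u c := by
      rw [map_mul, mul_div_cancel_right₀ _ ((map_ne_zero u).2 h0)]
    rw [h4]
    exact div_mem (IntermediateField.subset_adjoin _ _ (hu ⟨_, h3⟩))
      (IntermediateField.subset_adjoin _ _ (hu ⟨_, hc⟩))
  have hf : Fr (pr (ι.comp A.val) τ).range := fr_of_adjoin (top_unique (by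
    rw [← gen, IntermediateField.adjoin_le_iff]
    exact Set.union_subset (key ι fun a => ⟨a ⊗ₜ 1, by simp [pr]⟩)
      (key (τ.comp ι) fun a => ⟨1 ⊗ₜ a, by simp [pr]⟩)))
  obtain ⟨ψ, hψ⟩ := gen_symm (ι := ι.comp A.val) (fun a => hτ a)
    (inj_of_dim _ hf (dim_tensor_le A h1) hL) hf j fix
  exact ⟨A, inferInstance, inferInstance, inferInstance, inferInstance, h1,
    birationalOver_of_gen hφ hψ⟩

end Crest.Agent.X262.Brg.Sym
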