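import Crest.Agent.X262.Brg.Main
import Crest.Agent.X262.Fano21.Chart

/-!
# Row 262, bridge (helper19): `SymStmt`
-/

set_option autoImplicit false

namespace Crest.Agent.X262.Brg.Main

theorem fanoDom : FanoDom := fun _ hG =>
  ⟨Fano21.chart_isDomain hG.1 hG.2, Fano21.chart_dim hG.1 hG.2⟩

theorem symStmt : X262.Top.SymStmt := symStmt_of fanoDom

end Crest.Agent.X262.Brg.Main
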